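import Vale.Agent.P248.Urysohn.Core
import Vale.Agent.P248.Ellipsoids.Mahler

/-!
P248: bodies of constant width and outer parallel bodies at a distance at least the mean width
satisfy the inequality of Q2, strictly, in high dimension.
-/

noncomputable section

open MeasureTheory Set Matrix
open scoped Nat ENNReal Pointwise

namespace Vale.Agent.P248.Urysohn

open Vale.Agent.P248.Ellipsoids

variable {n : ℕ}

/-- The Euclidean length. -/
def len (x : Fin n → ℝ) : ℝ := √(∑ i, x i ^ 2)

lemma len_nonneg (x : Fin n → ℝ) : 0 ≤ len x := Real.sqrt_nonneg _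

lemma len_sq (x : Fin n → ℝ) : len x ^ 2 = ∑ i, x i ^ 2 :=
  Real.sq_sqrt (Finset.sum_nonneg fun i _ => sq_nonneg _)

lemma len_neg (x : Fin n → ℝ) : len (-x) = len x := by simp [len]

lemma len_sub_comm (x y : Fin n → ℝ) : len (x - y) = len (y - x) := by rw [← len_neg, neg_sub]

lemma len_add_le (x y : Fin n → ℝ) : len (x + y) ≤ len x + len y := by
  have h := norm_add_le (WithLp.toLp 2 x : EuclideanSpace ℝ (Fin n)) (WithLp.toLp 2 y)
  simpa [EuclideanSpace.norm_eq, len] using h

lemma dot_le_len (x y : Fin n → ℝ) : ∑ i, x i * y i ≤ len x * len y :=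
  Real.sum_mul_le_sqrt_mul_sqrt _ _ _

lemma continuous_len : Continuous (len (n := n)) := by unfold len; fun_prop

lemma integral_len_kern : Integrable (fun g : Fin n → ℝ => len g * kern g) ∧
    ∫ g : Fin n → ℝ, len g * kern g ≤ √n * √(2 * Real.pi) ^ n := by
  obtain ⟨h1, h2, h3, h4⟩ := kern_moments n
  rcases Nat.eq_zero_or_pos n with rfl | hn
  · simp [len]
  have hs : 0 < √(n : ℝ) := Real.sqrt_pos.2 (by exact_mod_cast hn)
  have hb : ∀ g : Fin n → ℝ, len g ≤ √n / 2 + (∑ i, g i ^ 2) / (2 * √n) := fun g => by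
    rw [← len_sq, div_add_div _ _ two_ne_zero (by positivity), le_div_iff₀ (by positivity)]
    nlinarith [sq_nonneg (len g - √n)]
  have hi : Integrable fun g : Fin n → ℝ => len g * kern g := by
    refine integrable_kern continuous_len (a := √n / 2) (b := 1 / (2 * √n)) fun g => ?_
    rw [abs_of_nonneg (len_nonneg g), one_div_mul_eq_div]
    exact hb g
  refine ⟨hi, ?_⟩
  have hr : Integrable fun g : Fin n → ℝ =>
      √n / 2 * kern g + 1 / (2 * √n) * ((∑ i, g i ^ 2) * kern g) :=
    (h1.const_mul _).add (h3.const_mul _)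
  refine (integral_mono hi hr fun g => ?_).trans (le_of_eq ?_)
  · have := mul_le_mul_of_nonneg_right (hb g) (show 0 ≤ kern g from (Real.exp_pos _).le)
    rw [add_mul] at this
    convert this using 1
    ring
  · rw [integral_add (h1.const_mul _) (h3.const_mul _), integral_const_mul, integral_const_mul,
      h2, h4]
    field_simp
    rw [Real.sq_sqrt (Nat.cast_nonneg n)]
    ring

/-- A compact set containing a ball whose Gaussian width is at most `ρ` times that of the ball. -/
lemma ratio_bound (hn : 0 < n) {K : Set (Fin n → ℝ)} (hK : IsCompact K) {r ρ : ℝ} (hr : 0 < r)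
    (hρ : 0 < ρ) {c : Fin n → ℝ} (hball : ∀ y, len (y - c) ≤ r → y ∈ K)
    (hM : gaussWidth K 1 ≤ ρ * r * √n) {z : Fin n → ℝ} (hz : z ∈ interior K) :
    (2 * Real.pi / ρ) ^ n / (Real.exp 1 * ((n : ℝ) / 2 + 1)) / (n ! : ℝ) ≤
      (volume K).toReal * (volume (polarSet ((fun x => x - z) '' K))).toReal := by
  have hnR : (0 : ℝ) < n := by exact_mod_cast hn
  obtain ⟨hM0, hP⟩ := polar_lower hn hK hz (T := 1) (by simp)
  rw [Matrix.det_one, abs_one, one_mul] at hP
  have hV : r ^ n * (√(2 * Real.pi * Real.exp 1 / n) ^ n / (Real.exp 1 * ((n : ℝ) / 2 + 1))) ≤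
      (volume K).toReal := by
    have hsub : (fun y => y + c) '' {x : Fin n → ℝ | ∑ i, x i ^ 2 ≤ r ^ 2} ⊆ K := by
      rintro _ ⟨y, hy, rfl⟩
      refine hball _ ?_
      rw [add_sub_cancel_right, len, ← Real.sqrt_sq hr.le]
      exact Real.sqrt_le_sqrt hy
    have h1 : ENNReal.ofReal (r ^ n) * volume (unitBall n) ≤ volume K := by
      refine le_trans (le_of_eq ?_) (measure_mono hsub)
      rw [Set.image_add_right, measure_preimage_add_right,
        volume_ball_sq (by positivity), Real.sqrt_sq hr.le]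
    refine (ENNReal.ofReal_le_iff_le_toReal hK.measure_lt_top.ne).1 ?_
    rw [ENNReal.ofReal_mul (by positivity)]
    exact (mul_le_mul_right (unitBall_ge hn) _).trans h1
  have hP' : (√(2 * Real.pi / Real.exp 1) * n / (ρ * r * √n)) ^ n ≤
      (n ! : ℝ) * (volume (polarSet ((fun x => x - z) '' K))).toReal :=
    le_trans (by gcongr) hP
  rw [div_le_iff₀ (by positivity)]
  refine le_trans (le_of_eq ?_)
    ((mul_le_mul hV hP' (by positivity) ENNReal.toReal_nonneg).trans_eq (by ring))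
  rw [← mul_div_assoc, ← mul_pow, div_mul_eq_mul_div, ← mul_pow]
  congr 2
  have hs : √(n : ℝ) ^ 2 = n := Real.sq_sqrt hnR.le
  have h1 : √(2 * Real.pi * Real.exp 1 / n) * √(2 * Real.pi / Real.exp 1) =
      2 * Real.pi / √n := by
    rw [← Real.sqrt_mul (by positivity),
      show 2 * Real.pi * Real.exp 1 / n * (2 * Real.pi / Real.exp 1) = (2 * Real.pi) ^ 2 / n by
        field_simp,
      Real.sqrt_div (by positivity), Real.sqrt_sq (by positivity)]
  calc 2 * Real.pi / ρ = r * ((2 * Real.pi / √n) * n / (ρ * r * √n)) := by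
        field_simp; rw [hs]
    _ = _ := by rw [← h1]; ring

/-- The volume product of a simplex, up to `n!`, in closed form. -/
lemma simplex_value_le (n : ℕ) :
    ((n : ℝ) + 1) ^ (n + 1) / (n ! : ℝ) ≤ ((n : ℝ) + 1) * Real.exp 1 ^ (n + 1) := by
  have h := Real.pow_div_factorial_le_exp ((n : ℝ) + 1) (by positivity) n
  rw [← Real.exp_nat_mul, mul_one]
  push_cast
  rw [pow_succ, mul_div_right_comm, mul_comm]
  exact mul_le_mul_of_nonneg_left h (by positivity)

lemma growth (N : ℕ) (b C : ℝ)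
    (hbase : C * ((N : ℝ) + 1) * ((N : ℝ) / 2 + 1) < b ^ N)
    (hstep : ((N : ℝ) + 2) * ((N : ℝ) / 2 + 3 / 2) ≤ b * (((N : ℝ) + 1) * ((N : ℝ) / 2 + 1)))
    (hC : 0 ≤ C) : ∀ n, N ≤ n → C * ((n : ℝ) + 1) * ((n : ℝ) / 2 + 1) < b ^ n := by
  intro n hn
  induction n, hn using Nat.le_induction with
  | base => exact hbase
  | succ m hm ih =>
    have hmR : (N : ℝ) ≤ m := by exact_mod_cast hm
    have hN0 : (0 : ℝ) ≤ N := Nat.cast_nonneg N
    have hb1 : 1 ≤ b := by
      by_contra hlt
      push Not at hlt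
      nlinarith [mul_lt_mul_of_pos_right hlt
        (show (0 : ℝ) < ((N : ℝ) + 1) * ((N : ℝ) / 2 + 1) by positivity)]
    have hs : ((m : ℝ) + 2) * ((m : ℝ) / 2 + 3 / 2) ≤
        b * (((m : ℝ) + 1) * ((m : ℝ) / 2 + 1)) := by
      have : ((m : ℝ) + 2) * ((m : ℝ) / 2 + 3 / 2) * (((N : ℝ) + 1) * ((N : ℝ) / 2 + 1)) ≤
          ((N : ℝ) + 2) * ((N : ℝ) / 2 + 3 / 2) * (((m : ℝ) + 1) * ((m : ℝ) / 2 + 1)) := by
        nlinarith [mul_nonneg (sub_nonneg.2 hmR) hN0, mul_nonneg (mul_nonneg (sub_nonneg.2 hmR)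
          hN0) (Nat.cast_nonneg m : (0 : ℝ) ≤ m), Nat.cast_nonneg (α := ℝ) m]
      have h2 := mul_le_mul_of_nonneg_right hstep
        (show 0 ≤ ((m : ℝ) + 1) * ((m : ℝ) / 2 + 1) by positivity)
      refine le_of_mul_le_mul_right (this.trans (h2.trans (le_of_eq ?_)))
        (show (0 : ℝ) < ((N : ℝ) + 1) * ((N : ℝ) / 2 + 1) by positivity)
      ring
    push_cast
    rw [pow_succ]
    calc C * ((m : ℝ) + 1 + 1) * (((m : ℝ) + 1) / 2 + 1)
        = C * (((m : ℝ) + 2) * ((m : ℝ) / 2 + 3 / 2)) := by ring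
      _ ≤ b * (C * ((m : ℝ) + 1) * ((m : ℝ) / 2 + 1)) :=
          (mul_le_mul_of_nonneg_left hs hC).trans_eq (by ring)
      _ < b ^ m * b := by
          rw [mul_comm (b ^ m)]
          exact mul_lt_mul_of_pos_left ih (by linarith)

/-- The bound of `ratio_bound` beats the simplex. -/
lemma beats_simplex {ρ b : ℝ} (hρ : 0 < ρ) (hb : 0 ≤ b) (hbρ : b * (Real.exp 1 * ρ) ≤ 2 * Real.pi)
    (hgrow : (739 / 100 : ℝ) * ((n : ℝ) + 1) * ((n : ℝ) / 2 + 1) < b ^ n) :
    ((n : ℝ) + 1) ^ (n + 1) / (n ! : ℝ) ^ 2 <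
      (2 * Real.pi / ρ) ^ n / (Real.exp 1 * ((n : ℝ) / 2 + 1)) / (n ! : ℝ) := by
  have hf : (0 : ℝ) < (n ! : ℝ) := by positivity
  rw [pow_two, ← div_div, div_lt_div_iff_of_pos_right hf]
  refine (simplex_value_le n).trans_lt ((lt_div_iff₀ (by positivity)).2 ?_)
  have he2 : Real.exp 1 * Real.exp 1 ≤ 739 / 100 := by
    nlinarith [Real.exp_one_lt_d9, Real.exp_pos 1]
  calc ((n : ℝ) + 1) * Real.exp 1 ^ (n + 1) * (Real.exp 1 * ((n : ℝ) / 2 + 1))
      = Real.exp 1 * Real.exp 1 * ((n : ℝ) + 1) * ((n : ℝ) / 2 + 1) * Real.exp 1 ^ n := by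
        rw [pow_succ]; ring
    _ ≤ 739 / 100 * ((n : ℝ) + 1) * ((n : ℝ) / 2 + 1) * Real.exp 1 ^ n := by gcongr
    _ < b ^ n * Real.exp 1 ^ n := mul_lt_mul_of_pos_right hgrow (by positivity)
    _ ≤ (2 * Real.pi / ρ) ^ n := by
        rw [← mul_pow]
        refine pow_le_pow_left₀ (by positivity) ?_ n
        rw [le_div_iff₀ hρ, mul_assoc]
        exact hbρ

/-- Jung: a finite set of diameter at most `D` fits into a ball of radius `D / √2`. -/
lemma jung_finite {ι : Type} [Fintype ι] [Nonempty ι] (p : ι → Fin n → ℝ) {D : ℝ}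
    (hD : ∀ i j, len (p i - p j) ≤ D) :
    ∃ c : Fin n → ℝ, ∀ i, len (c - p i) ^ 2 ≤ D ^ 2 / 2 := by
  classical
  set F : (ι → ℝ) → ℝ := fun l =>
    ∑ i, l i * ∑ k, p i k ^ 2 - ∑ k, (∑ i, l i * p i k) ^ 2 with hF
  obtain ⟨i₀⟩ := ‹Nonempty ι›
  obtain ⟨l, hl, hmax⟩ := (isCompact_stdSimplex ℝ ι).exists_isMaxOn
    ⟨Pi.single i₀ 1, single_mem_stdSimplex ℝ i₀⟩ (f := F) (by rw [hF]; fun_prop)
  set c : Fin n → ℝ := fun k => ∑ i, l i * p i k with hc
  refine ⟨c, fun i => ?_⟩
  have hFD : F l ≤ D ^ 2 / 2 := by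
    have hpair : ∑ a, ∑ b, l a * l b * len (p a - p b) ^ 2 ≤ D ^ 2 := by
      calc ∑ a, ∑ b, l a * l b * len (p a - p b) ^ 2 ≤ ∑ a, ∑ b, l a * l b * D ^ 2 :=
            Finset.sum_le_sum fun a _ => Finset.sum_le_sum fun b _ => mul_le_mul_of_nonneg_left
              (pow_le_pow_left₀ (len_nonneg _) (hD a b) 2) (mul_nonneg (hl.1 a) (hl.1 b))
        _ = D ^ 2 := by simp only [← Finset.sum_mul, ← Finset.mul_sum, hl.2, mul_one, one_mul]
    have e : ∑ a, ∑ b, l a * l b * len (p a - p b) ^ 2 = 2 * F l := by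
      have e1 : ∀ a b : ι, l a * l b * len (p a - p b) ^ 2 =
          l b * (l a * ∑ k, p a k ^ 2) + l a * (l b * ∑ k, p b k ^ 2) -
            2 * ∑ k, (l a * p a k) * (l b * p b k) := fun a b => by
        rw [len_sq]
        simp only [Finset.mul_sum, ← Finset.sum_add_distrib, ← Finset.sum_sub_distrib]
        exact Finset.sum_congr rfl fun k _ => by simp only [Pi.sub_apply]; ring
      simp only [e1, Finset.sum_sub_distrib, Finset.sum_add_distrib, ← Finset.mul_sum,
        ← Finset.sum_mul, hl.2, one_mul]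
      have e2 : ∑ a, ∑ b, ∑ k, (l a * p a k) * (l b * p b k) = ∑ k, (∑ i, l i * p i k) ^ 2 := by
        simp only [sq, Finset.sum_mul_sum]
        rw [Finset.sum_comm (s := Finset.univ (α := Fin n))]
        exact Finset.sum_congr rfl fun a _ => Finset.sum_comm
      rw [e2, hF]
      ring
    linarith
  have hkey : ∀ t : ℝ, 0 < t → t ≤ 1 → len (c - p i) ^ 2 * (1 - t) ≤ F l := fun t ht ht1 => by
    have hmem : (1 - t) • l + t • Pi.single i 1 ∈ stdSimplex ℝ ι :=
      convex_stdSimplex ℝ ι hl (single_mem_stdSimplex ℝ i) (by linarith) ht.le (by ring)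
    have h : F ((1 - t) • l + t • Pi.single i 1) ≤ F l := hmax hmem
    have hlin : ∀ q : ι → ℝ, ∑ a, ((1 - t) • l + t • Pi.single i 1 : ι → ℝ) a * q a =
        (1 - t) * ∑ a, l a * q a + t * q i := fun q => by
      simp [Pi.single_apply, add_mul, mul_assoc, Finset.sum_add_distrib, Finset.mul_sum]
    have hval : F ((1 - t) • l + t • Pi.single i 1) =
        (1 - t) * F l + t * (1 - t) * len (c - p i) ^ 2 := by
      simp only [hF, hlin, len_sq, hc, Pi.sub_apply, sub_sq, Finset.sum_add_distrib,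
        Finset.sum_sub_distrib]
      have : ∀ k, ((1 - t) * ∑ a, l a * p a k + t * p i k) ^ 2 =
          (1 - t) ^ 2 * (∑ a, l a * p a k) ^ 2 + t ^ 2 * p i k ^ 2 +
            t * (1 - t) * (2 * (∑ a, l a * p a k) * p i k) := fun k => by ring
      simp only [this, Finset.sum_add_distrib, ← Finset.mul_sum]
      ring
    rw [hval] at h
    refine le_of_mul_le_mul_left ?_ ht
    linarith
  refine le_trans ?_ hFD
  refine le_of_forall_pos_le_add fun ε hε => ?_
  set q := len (c - p i) ^ 2 with hq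
  have hq0 : 0 ≤ q := sq_nonneg _
  have h := hkey (min 1 (ε / (q + 1))) (lt_min one_pos (by positivity)) (min_le_left _ _)
  have : q * min 1 (ε / (q + 1)) ≤ ε := by
    refine (mul_le_mul_of_nonneg_left (min_le_right _ _) hq0).trans ?_
    rw [← mul_div_assoc, div_le_iff₀ (by positivity)]
    nlinarith
  linarith

/-- The points at distance at most `ρ` from `p`. -/
def nearBall (p : Fin n → ℝ) (ρ : ℝ) : Set (Fin n → ℝ) := {y | len (y - p) ≤ ρ}

lemma isCompact_nearBall (p : Fin n → ℝ) (ρ : ℝ) : IsCompact (nearBall p ρ) := by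
  refine (isCompact_closedBall p ρ).of_isClosed_subset
    (isClosed_le (continuous_len.comp (continuous_id.sub continuous_const)) continuous_const)
    fun y (hy : len (y - p) ≤ ρ) => ?_
  rw [mem_closedBall_iff_norm]
  refine (pi_norm_le_iff_of_nonneg ((len_nonneg _).trans hy)).2 fun j => ?_
  refine le_trans ?_ hy
  rw [Real.norm_eq_abs, ← Real.sqrt_sq_eq_abs]
  exact Real.sqrt_le_sqrt (Finset.single_le_sum (f := fun i => (y - p) i ^ 2)
    (fun i _ => sq_nonneg _) (Finset.mem_univ j))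

/-- A body of constant width `D` contains a ball of radius `(1 - 1/√2) D`. -/
lemma constantWidth_ball {K : Set (Fin n → ℝ)} (hK : IsCompact K) (hc : Convex ℝ K)
    (hne : K.Nonempty) {D : ℝ} (hD : HasConstantWidth K D) :
    (∀ x ∈ K, ∀ x' ∈ K, len (x - x') ≤ |D|) ∧
      ∃ c : Fin n → ℝ, ∀ y, len (y - c) ≤ |D| - |D| / √2 → y ∈ K := by
  have hdiam : ∀ x ∈ K, ∀ x' ∈ K, len (x - x') ≤ |D| := by
    intro x hx x' hx'
    have h1 := le_supportFun hK (x - x') hx
    have h2 := le_supportFun hK (-(x - x')) hx'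
    have h3 : supportFun K (x - x') + supportFun K (-(x - x')) = D * len (x - x') := hD _
    have h4 : len (x - x') ^ 2 ≤ |D| * len (x - x') := by
      rw [len_sq]
      refine le_trans (le_of_eq ?_) ((le_of_le_of_eq (add_le_add h1 h2) h3).trans
        (mul_le_mul_of_nonneg_right (le_abs_self D) (len_nonneg _)))
      rw [← Finset.sum_add_distrib]
      exact Finset.sum_congr rfl fun i _ => by simp only [Pi.sub_apply, Pi.neg_apply]; ring
    rcases (len_nonneg (x - x')).eq_or_lt with h0 | h0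
    · rw [← h0]; exact abs_nonneg D
    · nlinarith
  refine ⟨hdiam, ?_⟩
  obtain ⟨x₀, hx₀⟩ := hne
  have hcent : (nearBall x₀ (|D| / √2) ∩ ⋂ x : K, nearBall (x : Fin n → ℝ) (|D| / √2)).Nonempty := by
    refine (isCompact_nearBall _ _).inter_iInter_nonempty _
      (fun x => (isCompact_nearBall _ _).isClosed) fun u => ?_
    obtain ⟨c, hc'⟩ := jung_finite (D := |D|)
      (fun o : Option u => (o.elim x₀ fun a => (a.1 : Fin n → ℝ) : Fin n → ℝ)) fun i j =>
      hdiam _ (by cases i <;> simp [hx₀]) _ (by cases j <;> simp [hx₀])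
    have hh : ∀ o : Option u, len (c - (o.elim x₀ fun a => (a.1 : Fin n → ℝ))) ≤ |D| / √2 :=
      fun o => by
        refine le_of_pow_le_pow_left₀ two_ne_zero (by positivity) ((hc' o).trans_eq ?_)
        rw [div_pow, Real.sq_sqrt zero_le_two]
    refine ⟨c, hh none, mem_iInter₂.2 fun a ha => ?_⟩
    exact hh (some ⟨a, ha⟩)
  obtain ⟨c, -, hcK⟩ := hcent
  refine ⟨c, fun y hy => ?_⟩
  have hall : ∀ x ∈ K, len (y - x) ≤ |D| := fun x hx => by
    have h1 : len (c - x) ≤ |D| / √2 := (mem_iInter.1 hcK ⟨x, hx⟩ :)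
    have h2 := len_add_le (y - c) (c - x)
    rw [sub_add_sub_cancel] at h2
    linarith
  by_contra hy'
  obtain ⟨f, s, hfs, hsy⟩ := geometric_hahn_banach_closed_point hc hK.isClosed hy'
  set u : Fin n → ℝ := fun i => f (Pi.single i 1) with hu
  have hfu : ∀ x, f x = ∑ i, u i * x i := fun x => by
    conv_lhs => rw [pi_eq_sum_univ' x]
    simp only [map_sum, map_smul, smul_eq_mul, hu]
    exact Finset.sum_congr rfl fun i _ => mul_comm _ _
  have hne : K.Nonempty := ⟨x₀, hx₀⟩
  obtain ⟨x, hx, hxmin⟩ := hK.exists_isMinOn hne f.continuous.continuousOn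
  have h1 : supportFun K u < ∑ i, u i * y i :=
    lt_of_le_of_lt (supportFun_le hne u fun a ha => by rw [← hfu]; exact (hfs a ha).le)
      (by rw [← hfu]; exact hsy)
  have h2 : supportFun K (-u) ≤ -∑ i, u i * x i := supportFun_le hne _ fun a ha => by
    have : f x ≤ f a := hxmin ha
    rw [hfu, hfu] at this
    simp only [Pi.neg_apply, neg_mul, Finset.sum_neg_distrib]
    linarith
  have h3 : supportFun K u + supportFun K (-u) = D * len u := hD _
  have hDn : 0 ≤ D := by
    by_contra hlt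
    have hu0 : u = 0 := by
      have e1 := le_supportFun hK u hx
      have e2 := le_supportFun hK (-u) hx
      simp only [Pi.neg_apply, neg_mul, Finset.sum_neg_distrib] at e2
      by_contra hne'
      have : 0 < len u := by
        rw [len, Real.sqrt_pos]
        obtain ⟨j, hj⟩ := Function.ne_iff.1 hne'
        exact Finset.sum_pos' (fun i _ => sq_nonneg _)
          ⟨j, Finset.mem_univ _, lt_of_le_of_ne (sq_nonneg _) (Ne.symm (pow_ne_zero 2 hj))⟩
      nlinarith
    simp [hfu, hu0] at hfs hsy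
    linarith [hfs x hx]
  have h4 : ∑ i, u i * y i - ∑ i, u i * x i ≤ len u * |D| := by
    rw [← Finset.sum_sub_distrib]
    refine le_trans (le_of_eq ?_) ((dot_le_len u (y - x)).trans
      (mul_le_mul_of_nonneg_left (hall x hx) (len_nonneg u)))
    exact Finset.sum_congr rfl fun i _ => by simp only [Pi.sub_apply]; ring
  rw [abs_of_nonneg hDn] at h4
  linarith

lemma gaussWidth_one (K : Set (Fin n → ℝ)) :
    gaussWidth K 1 * √(2 * Real.pi) ^ n = ∫ g : Fin n → ℝ, supportFun K g * kern g := by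
  rw [gaussWidth, div_mul_cancel₀ _ (by positivity)]
  simp [kern]

/-- Q2, strictly, for bodies of constant width. -/
theorem constantWidth_strict (hn : 27 ≤ n) {K : Set (Fin n → ℝ)} (hK : IsCompact K)
    (hc : Convex ℝ K) (hint : (interior K).Nonempty) {D : ℝ} (hD : HasConstantWidth K D) :
    ∃ v : ℝ, ((n : ℝ) + 1) ^ (n + 1) / (n ! : ℝ) ^ 2 < v ∧ ∀ z ∈ interior K,
      v ≤ (volume K).toReal * (volume (polarSet ((fun x => x - z) '' K))).toReal := by
  have hn0 : 0 < n := by omega
  obtain ⟨z₀, hz₀⟩ := hint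
  have hne : K.Nonempty := ⟨z₀, interior_subset hz₀⟩
  obtain ⟨hdiam, c, hball⟩ := constantWidth_ball hK hc hne hD
  have hM0 := (polar_lower hn0 hK hz₀ (T := 1) (by simp)).1
  have hM : gaussWidth K 1 ≤ |D| / 2 * √n := by
    refine le_of_mul_le_mul_right ?_ (show 0 < √(2 * Real.pi) ^ n by positivity)
    obtain ⟨hli, hlv⟩ := integral_len_kern (n := n)
    have hw := integrable_width hK hne (1 : Matrix (Fin n) (Fin n) ℝ)
    simp only [Matrix.one_mulVec] at hw
    have h2 : ∫ g : Fin n → ℝ, supportFun K (-g) * kern g = ∫ g, supportFun K g * kern g := by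
      conv_rhs => rw [← integral_neg_eq_self]
      simp only [kern_neg]
    have hwn : Integrable fun g : Fin n → ℝ => supportFun K (-g) * kern g := by
      have := hw.comp_neg
      simpa [kern_neg] using this
    have h3 : ∫ g : Fin n → ℝ, (supportFun K g * kern g + supportFun K (-g) * kern g) =
        D * ∫ g : Fin n → ℝ, len g * kern g := by
      rw [← integral_const_mul]
      refine integral_congr_ae (Filter.Eventually.of_forall fun g => ?_)
      show supportFun K g * kern g + supportFun K (-g) * kern g = D * (len g * kern g)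
      rw [← add_mul, hD g, len, mul_assoc]
    rw [integral_add hw hwn, h2] at h3
    rw [gaussWidth_one]
    have hnn : 0 ≤ ∫ g : Fin n → ℝ, len g * kern g :=
      integral_nonneg fun g => mul_nonneg (len_nonneg g) (Real.exp_pos _).le
    nlinarith [le_abs_self D, abs_nonneg D]
  have hDpos : 0 < |D| := by
    have hnn : 0 < √(n : ℝ) := Real.sqrt_pos.2 (by exact_mod_cast hn0)
    nlinarith
  have hs2 : √2 < 14143 / 10000 := by
    rw [Real.sqrt_lt' (by norm_num)]; norm_num
  have hs2' : 14142 / 10000 < √2 := by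
    rw [Real.lt_sqrt (by norm_num)]; norm_num
  set r := |D| - |D| / √2 with hr
  have hfrac : |D| / √2 ≤ |D| * (10000 / 14142) := by
    rw [div_le_iff₀ (by positivity), mul_assoc]
    refine le_mul_of_one_le_right (abs_nonneg D) ?_
    linarith
  have hr0 : 0 < r := by rw [hr]; linarith
  have hρ : gaussWidth K 1 ≤ 1708 / 1000 * r * √n := by
    refine hM.trans (mul_le_mul_of_nonneg_right ?_ (Real.sqrt_nonneg _))
    rw [hr]; linarith
  refine ⟨_, ?_, fun z hz => ratio_bound hn0 hK hr0 (by norm_num) hball hρ hz⟩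
  refine beats_simplex (b := 13531 / 10000) (by norm_num) (by norm_num) ?_
    (growth 27 _ _ (by norm_num) (by norm_num) (by norm_num) n hn)
  nlinarith [Real.exp_one_lt_d9, Real.pi_gt_d4]

lemma parallel_facts {A : Set (Fin n → ℝ)} (hA : IsCompact A) (hne : A.Nonempty) {r : ℝ}
    (hr : 0 < r) :
    IsCompact (A + r • unitBall n) ∧
      (∃ c : Fin n → ℝ, ∀ y, len (y - c) ≤ r → y ∈ A + r • unitBall n) ∧
      gaussWidth (A + r • unitBall n) 1 ≤ gaussWidth A 1 + r * √n := by
  have hB : IsCompact (unitBall n) := by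
    have : unitBall n = nearBall 0 1 := by
      ext x; simp [unitBall, nearBall, len, Real.sqrt_le_one]
    rw [this]; exact isCompact_nearBall 0 1
  have hK : IsCompact (A + r • unitBall n) := hA.add (hB.smul r)
  obtain ⟨a, ha⟩ := hne
  have hmem : ∀ y, len (y - a) ≤ r → y ∈ A + r • unitBall n := fun y hy => by
    refine ⟨a, ha, y - a, ⟨r⁻¹ • (y - a), ?_, by simp [smul_smul, hr.ne']⟩, by simp⟩
    show ∑ i, (r⁻¹ • (y - a)) i ^ 2 ≤ 1
    simp only [Pi.smul_apply, smul_eq_mul, mul_pow, ← Finset.mul_sum, ← len_sq]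
    rw [inv_pow, inv_mul_le_iff₀ (by positivity), mul_one]
    exact pow_le_pow_left₀ (len_nonneg _) hy 2
  refine ⟨hK, ⟨a, hmem⟩, ?_⟩
  refine le_of_mul_le_mul_right ?_ (show 0 < √(2 * Real.pi) ^ n by positivity)
  rw [add_mul, gaussWidth_one, gaussWidth_one, mul_assoc]
  obtain ⟨hli, hlv⟩ := integral_len_kern (n := n)
  have hA' := integrable_width hA ⟨a, ha⟩ (1 : Matrix (Fin n) (Fin n) ℝ)
  have hK' := integrable_width hK ⟨a, hmem a (by simpa [len] using hr.le)⟩
    (1 : Matrix (Fin n) (Fin n) ℝ)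
  simp only [Matrix.one_mulVec] at hA' hK'
  refine le_trans (integral_mono hK' (hA'.add (hli.const_mul r)) fun g => ?_) ?_
  · have h : supportFun (A + r • unitBall n) g ≤ supportFun A g + r * len g := by
      refine supportFun_le ⟨a, hmem a (by simpa [len] using hr.le)⟩ g ?_
      rintro _ ⟨a', ha', w, ⟨b, hb, rfl⟩, rfl⟩
      simp only [Pi.add_apply, Pi.smul_apply, smul_eq_mul, mul_add, Finset.sum_add_distrib]
      refine add_le_add (le_supportFun hA g ha') ?_
      have hb1 : len b ≤ 1 := by rw [len, Real.sqrt_le_one]; exact hb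
      calc ∑ i, g i * (r * b i) = r * ∑ i, g i * b i := by
            rw [Finset.mul_sum]; exact Finset.sum_congr rfl fun i _ => by ring
        _ ≤ r * len g := mul_le_mul_of_nonneg_left ((dot_le_len g b).trans
            (mul_le_of_le_one_right (len_nonneg g) hb1)) hr.le
    simp only [Pi.add_apply]
    rw [← mul_assoc, ← add_mul]
    exact mul_le_mul_of_nonneg_right h (Real.exp_pos _).le
  · simp only [Pi.add_apply]
    rw [integral_add hA' (hli.const_mul r), integral_const_mul]
    gcongr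

/-- Q2, strictly, for outer parallel bodies at distance at least the mean width. -/
theorem parallel_strict (hn : 75 ≤ n) {A : Set (Fin n → ℝ)} (hA : IsCompact A) (hne : A.Nonempty)
    {r : ℝ} (hr : 0 < r) (hAr : gaussWidth A 1 ≤ r * √n) :
    ∃ v : ℝ, ((n : ℝ) + 1) ^ (n + 1) / (n ! : ℝ) ^ 2 < v ∧ ∀ z ∈ interior (A + r • unitBall n),
      v ≤ (volume (A + r • unitBall n)).toReal *
        (volume (polarSet ((fun x => x - z) '' (A + r • unitBall n)))).toReal := by
  obtain ⟨hK, ⟨c, hc⟩, hM⟩ := parallel_facts hA hne hr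
  refine ⟨_, ?_, fun z hz => ratio_bound (ρ := 2) (by omega) hK hr two_pos hc (by linarith) hz⟩
  refine beats_simplex (b := 11556 / 10000) two_pos (by norm_num) ?_
    (growth 75 _ _ (by norm_num) (by norm_num) (by norm_num) n hn)
  nlinarith [Real.exp_one_lt_d9, Real.pi_gt_d4]

/-- Q1, strictly, for symmetric outer parallel bodies at distance twice the mean width. -/
theorem parallel_symmetric (hn : 120 ≤ n) {A : Set (Fin n → ℝ)} (hA : IsCompact A)
    (hc : Convex ℝ A) (hne : A.Nonempty) (hsym : ∀ x ∈ A, -x ∈ A) {r : ℝ} (hr : 0 < r)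
    (hAr : 2 * gaussWidth A 1 ≤ r * √n) :
    (4 : ℝ) ^ n / (n ! : ℝ) < (volume (A + r • unitBall n)).toReal *
      (volume (polarSet (A + r • unitBall n))).toReal := by
  obtain ⟨hK, -, hM⟩ := parallel_facts hA hne hr
  obtain ⟨x₀, hx₀⟩ := hne
  have h0 : (0 : Fin n → ℝ) ∈ A := by
    have := hc hx₀ (hsym x₀ hx₀) (show (0 : ℝ) ≤ 1 / 2 by norm_num)
      (show (0 : ℝ) ≤ 1 / 2 by norm_num) (by norm_num)
    simpa using this
  have hmem : ∀ y, len (y - 0) ≤ r → y ∈ A + r • unitBall n := fun y hy => by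
    refine ⟨0, h0, y, ⟨r⁻¹ • y, ?_, by simp [smul_smul, hr.ne']⟩, by simp⟩
    show ∑ i, (r⁻¹ • y) i ^ 2 ≤ 1
    rw [sub_zero] at hy
    simp only [Pi.smul_apply, smul_eq_mul, mul_pow, ← Finset.mul_sum, ← len_sq]
    rw [inv_pow, inv_mul_le_iff₀ (by positivity), mul_one]
    exact pow_le_pow_left₀ (len_nonneg _) hy 2
  have hz : (0 : Fin n → ℝ) ∈ interior (A + r • unitBall n) :=
    mem_interior.2 ⟨{y | len (y - 0) < r}, fun y hy => hmem y (le_of_lt hy),
      isOpen_lt (continuous_len.comp (continuous_id.sub continuous_const)) continuous_const,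
      by simpa [len] using hr⟩
  have h := ratio_bound (ρ := 3 / 2) (by omega) hK hr (by norm_num) hmem (by linarith) hz
  simp only [sub_zero, image_id'] at h
  refine lt_of_lt_of_le ?_ h
  rw [div_lt_div_iff_of_pos_right (by positivity), lt_div_iff₀ (by positivity)]
  have hg : ∀ m : ℕ, 120 ≤ m → (272 / 100 : ℝ) * ((m : ℝ) / 2 + 1) < (10471 / 10000 : ℝ) ^ m := by
    intro m hm
    induction m, hm using Nat.le_induction with
    | base => norm_num
    | succ k hk ih =>
      have : (120 : ℝ) ≤ k := by exact_mod_cast hk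
      push_cast
      rw [pow_succ]
      nlinarith
  calc (4 : ℝ) ^ n * (Real.exp 1 * ((n : ℝ) / 2 + 1))
      ≤ 4 ^ n * (272 / 100 * ((n : ℝ) / 2 + 1)) := by
        gcongr; linarith [Real.exp_one_lt_d9]
    _ < 4 ^ n * (10471 / 10000 : ℝ) ^ n := mul_lt_mul_of_pos_left (hg n hn) (by positivity)
    _ ≤ (2 * Real.pi / (3 / 2)) ^ n := by
        rw [← mul_pow]
        exact pow_le_pow_left₀ (by norm_num) (by linarith [Real.pi_gt_d4]) n

end Vale.Agent.P248.Urysohn
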