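import Vale.Agent.P248.Urysohn.Defs
import Vale.Agent.P254.LpSub.GaussMoment
import Vale.Agent.P254.LpSub.VolumeLower

/-!
P248, bodies of small mean width: the polar about every interior point is at least as large as
Jensen's inequality against a Gaussian predicts.
-/

noncomputable section

open MeasureTheory Set Matrix
open scoped Nat ENNReal Pointwise

namespace Vale.Agent.P248.Urysohn

open Vale.Agent.P248.Ellipsoids

variable {n : ℕ}

lemma bddAbove_supp {K : Set (Fin n → ℝ)} (hK : IsCompact K) (y : Fin n → ℝ) :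
    BddAbove ((fun x => ∑ i, y i * x i) '' K) :=
  (hK.image (by fun_prop)).bddAbove

lemma le_supportFun {K : Set (Fin n → ℝ)} (hK : IsCompact K) (y : Fin n → ℝ) {x : Fin n → ℝ}
    (hx : x ∈ K) : ∑ i, y i * x i ≤ supportFun K y :=
  le_csSup (bddAbove_supp hK y) (mem_image_of_mem (fun x => ∑ i, y i * x i) hx)

lemma supportFun_le {K : Set (Fin n → ℝ)} (hne : K.Nonempty) (y : Fin n → ℝ) {b : ℝ}
    (h : ∀ x ∈ K, ∑ i, y i * x i ≤ b) : supportFun K y ≤ b :=
  csSup_le (hne.image _) (by rintro _ ⟨x, hx, rfl⟩; exact h x hx)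

lemma continuous_supportFun {K : Set (Fin n → ℝ)} (hK : IsCompact K) : Continuous (supportFun K) :=
  hK.continuous_sSup (f := fun (y : Fin n → ℝ) (x : Fin n → ℝ) => ∑ i, y i * x i) (by fun_prop)

lemma supportFun_smul {K : Set (Fin n → ℝ)} {c : ℝ} (hc : 0 ≤ c) (y : Fin n → ℝ) :
    supportFun K (c • y) = c * supportFun K y := by
  have h := Real.sSup_smul_of_nonneg hc ((fun x => ∑ i, y i * x i) '' K)
  rw [smul_eq_mul] at h
  rw [supportFun, supportFun, ← h, ← Set.image_smul, Set.image_image]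
  refine congrArg sSup (Set.image_congr' fun x => ?_)
  simp [Finset.mul_sum, mul_assoc]

/-- The Gaussian kernel. -/
def kern (g : Fin n → ℝ) : ℝ := Real.exp (-(∑ i, g i ^ 2) / 2)

lemma kern_moments (n : ℕ) :
    Integrable (fun g : Fin n → ℝ => kern g) ∧ ∫ g : Fin n → ℝ, kern g = √(2 * Real.pi) ^ n ∧
    Integrable (fun g : Fin n → ℝ => (∑ i, g i ^ 2) * kern g) ∧
      ∫ g : Fin n → ℝ, (∑ i, g i ^ 2) * kern g = n * √(2 * Real.pi) ^ n := by
  obtain ⟨h1, h2⟩ := P254.LpSub.GaussAux.gauss_total n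
  have hT : (2 * Real.pi) ^ ((n : ℝ) / 2) = √(2 * Real.pi) ^ n := by
    rw [Real.sqrt_eq_rpow, ← Real.rpow_natCast, ← Real.rpow_mul (by positivity)]
    congr 1; ring
  have hq : ∀ j : Fin n, Integrable (fun g : Fin n → ℝ => g j ^ 2 * kern g) ∧
      ∫ g : Fin n → ℝ, g j ^ 2 * kern g = √(2 * Real.pi) ^ n := by
    intro j
    have := P254.LpSub.gaussMoment n (Pi.single j 1) 2 (by norm_num)
    simpa [Pi.single_apply, P254.LpSub.gm_two, kern, hT] using this
  refine ⟨h1, h2, ?_, ?_⟩
  · simp only [Finset.sum_mul]; exact integrable_finsetSum _ fun j _ => (hq j).1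
  · simp only [Finset.sum_mul]
    rw [integral_finsetSum _ fun j _ => (hq j).1]
    simp [fun j => (hq j).2]

lemma kern_neg (g : Fin n → ℝ) : kern (-g) = kern g := by simp [kern]

/-- Continuous functions of at most linear growth are integrable against the Gaussian. -/
lemma integrable_kern {f : (Fin n → ℝ) → ℝ} (hf : Continuous f) {a b : ℝ}
    (hab : ∀ g, |f g| ≤ a + b * ∑ i, g i ^ 2) : Integrable fun g => f g * kern g := by
  obtain ⟨h1, -, h3, -⟩ := kern_moments n
  refine ((h1.const_mul a).add (h3.const_mul b)).mono' ?_ (Filter.Eventually.of_forall fun g => ?_)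
  · exact (hf.mul (by unfold kern; fun_prop)).aestronglyMeasurable
  · have h := mul_le_mul_of_nonneg_right (hab g) (Real.exp_pos (-(∑ i, g i ^ 2) / 2)).le
    rw [Real.norm_eq_abs, abs_mul, abs_of_pos (show 0 < kern g from Real.exp_pos _)]
    simp only [kern, Pi.add_apply] at h ⊢
    linarith

/-- Every linear form has Gaussian mean zero. -/
lemma integral_linear_kern (v : Fin n → ℝ) : ∫ g : Fin n → ℝ, (∑ i, v i * g i) * kern g = 0 := by
  have h := integral_neg_eq_self (fun g : Fin n → ℝ => (∑ i, v i * g i) * kern g) volume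
  simp only [Pi.neg_apply, mul_neg, Finset.sum_neg_distrib, kern_neg, neg_mul,
    MeasureTheory.integral_neg] at h
  linarith

lemma continuous_comp_mulVec {K : Set (Fin n → ℝ)} (hK : IsCompact K)
    (T : Matrix (Fin n) (Fin n) ℝ) : Continuous fun g => supportFun K (T *ᵥ g) :=
  (continuous_supportFun hK).comp (continuous_const.matrix_mulVec continuous_id)

lemma integrable_width {K : Set (Fin n → ℝ)} (hK : IsCompact K) (hne : K.Nonempty)
    (T : Matrix (Fin n) (Fin n) ℝ) : Integrable fun g => supportFun K (T *ᵥ g) * kern g := by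
  obtain ⟨R, hR⟩ := hK.isBounded.exists_norm_le
  refine integrable_kern (continuous_comp_mulVec hK T) (a := |R| * ∑ i, ∑ j, |T i j|)
    (b := |R| * ∑ i, ∑ j, |T i j|) fun g => ?_
  have hS : ∀ j, |g j| ≤ 1 + ∑ k, g k ^ 2 := fun j => by
    have := Finset.single_le_sum (f := fun k => g k ^ 2) (fun k _ => sq_nonneg _)
      (Finset.mem_univ j)
    nlinarith [sq_abs (g j), sq_nonneg (|g j| - 1)]
  have hx : ∀ x ∈ K, |∑ i, (T *ᵥ g) i * x i| ≤
      (|R| * ∑ i, ∑ j, |T i j|) * (1 + ∑ k, g k ^ 2) := fun x hx => by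
    refine (Finset.abs_sum_le_sum_abs _ _).trans ?_
    rw [Finset.mul_sum, Finset.sum_mul]
    refine Finset.sum_le_sum fun i _ => ?_
    rw [abs_mul, mul_comm, mul_assoc]
    have hxi : |x i| ≤ |R| := by
      have := norm_le_pi_norm x i
      rw [Real.norm_eq_abs] at this
      exact this.trans ((hR x hx).trans (le_abs_self R))
    refine mul_le_mul hxi ?_ (abs_nonneg _) (abs_nonneg _)
    simp only [Matrix.mulVec, dotProduct]
    refine (Finset.abs_sum_le_sum_abs _ _).trans ?_
    rw [Finset.sum_mul]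
    refine Finset.sum_le_sum fun j _ => ?_
    rw [abs_mul]
    exact mul_le_mul_of_nonneg_left (hS j) (abs_nonneg _)
  obtain ⟨x₀, hx₀⟩ := hne
  have h1 := supportFun_le ⟨x₀, hx₀⟩ _ fun x hx' => (le_abs_self _).trans (hx x hx')
  have h2 := (neg_le_of_abs_le (hx x₀ hx₀)).trans (le_supportFun hK _ hx₀)
  rw [abs_le]
  constructor <;> nlinarith

/-- Volume of the polar about a point from the integral of the exponential of its gauge. -/
lemma exp_gauge_le {L : Set (Fin n → ℝ)} {f : (Fin n → ℝ) → ℝ} (hf : Continuous f)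
    (h0 : ∀ y, 0 ≤ f y) (hsmul : ∀ c : ℝ, 0 ≤ c → ∀ y, f (c • y) = c * f y)
    (hL : {y | f y ≤ 1} ⊆ L) :
    ∫⁻ y, ENNReal.ofReal (Real.exp (-f y)) ≤ ENNReal.ofReal (n ! : ℝ) * volume L := by
  set ψ : ℝ → ℝ≥0∞ := fun s => ENNReal.ofReal (Real.exp (-s)) with hψ
  have e1 : ∀ y, ENNReal.ofReal (Real.exp (-f y)) =
      ∫⁻ s in Ioi (0 : ℝ), (Ioi (f y)).indicator ψ s := fun y => by
    rw [setLIntegral_indicator measurableSet_Ioi, Ioi_inter_Ioi, sup_eq_left.2 (h0 y),
      ← ofReal_integral_eq_lintegral_ofReal (exp_neg_integrableOn_Ioi (f y) one_pos |>.congr_fun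
        (fun s _ => by simp) measurableSet_Ioi) (Filter.Eventually.of_forall fun s =>
          (Real.exp_pos _).le), integral_exp_neg_Ioi]
  have hm : Measurable fun p : (Fin n → ℝ) × ℝ => (Ioi (f p.1)).indicator ψ p.2 := by
    have : (fun p : (Fin n → ℝ) × ℝ => (Ioi (f p.1)).indicator ψ p.2) =
        {p : (Fin n → ℝ) × ℝ | f p.1 < p.2}.indicator fun p => ψ p.2 := rfl
    rw [this]
    exact (Measurable.ennreal_ofReal (by fun_prop)).indicator
      (measurableSet_lt (hf.measurable.comp measurable_fst) measurable_snd)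
  simp only [e1]
  rw [lintegral_lintegral_swap hm.aemeasurable]
  have hb : ∀ s ∈ Ioi (0 : ℝ), ∫⁻ y, (Ioi (f y)).indicator ψ s ≤
      ENNReal.ofReal (Real.exp (-s) * s ^ n) * volume L := fun s hs => by
    have e : (fun y => (Ioi (f y)).indicator ψ s) = {y | f y < s}.indicator fun _ => ψ s := rfl
    rw [e, lintegral_indicator_const (measurableSet_lt hf.measurable measurable_const),
      ENNReal.ofReal_mul (Real.exp_pos _).le, mul_assoc]
    gcongr
    have hsub : {y | f y < s} ⊆ s • L := fun y (hy : f y < s) => by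
      refine (mem_smul_set_iff_inv_smul_mem₀ (ne_of_gt hs) _ _).2 (hL ?_)
      show f _ ≤ 1
      rw [hsmul _ (inv_nonneg.2 (le_of_lt hs)), inv_mul_le_iff₀ hs, mul_one]
      exact hy.le
    refine (measure_mono hsub).trans_eq ?_
    rw [Measure.addHaar_smul_of_nonneg _ (le_of_lt hs), Module.finrank_fin_fun]
  refine (setLIntegral_mono' measurableSet_Ioi hb).trans_eq ?_
  rw [lintegral_mul_const _ (by fun_prop)]
  congr 1
  have hg := Real.Gamma_eq_integral (show (0 : ℝ) < n + 1 by positivity)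
  rw [Real.Gamma_nat_eq_factorial, add_sub_cancel_right] at hg
  have hi := Real.GammaIntegral_convergent (show (0 : ℝ) < n + 1 by positivity)
  rw [add_sub_cancel_right] at hi
  simp only [Real.rpow_natCast] at hg hi
  rw [hg, ofReal_integral_eq_lintegral_ofReal hi]
  exact (ae_restrict_iff' measurableSet_Ioi).2 (Filter.Eventually.of_forall fun s (hs : 0 < s) =>
    by positivity)

/-- Jensen's inequality against a Gaussian: for every interior point `z`,
`n! |(K - z)°| ≥ |det T| (√(2π/e) n / E h_K(T g)) ^ n`. -/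
theorem polar_lower (hn : 0 < n) {K : Set (Fin n → ℝ)} (hK : IsCompact K) {z : Fin n → ℝ}
    (hz : z ∈ interior K) {T : Matrix (Fin n) (Fin n) ℝ} (hT : T.det ≠ 0) :
    0 < gaussWidth K T ∧
      |T.det| * (√(2 * Real.pi / Real.exp 1) * n / gaussWidth K T) ^ n ≤
        (n ! : ℝ) * (volume (polarSet ((fun x => x - z) '' K))).toReal := by
  have hne : K.Nonempty := ⟨z, interior_subset hz⟩
  set L := polarSet ((fun x => x - z) '' K) with hLdef
  set f : (Fin n → ℝ) → ℝ := fun y => supportFun K y - ∑ i, y i * z i with hf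
  have hfc : Continuous f := (continuous_supportFun hK).sub (by fun_prop)
  have hsmul : ∀ c : ℝ, 0 ≤ c → ∀ y, f (c • y) = c * f y := fun c hc y => by
    simp only [hf, supportFun_smul hc, mul_sub, Finset.mul_sum, Pi.smul_apply, smul_eq_mul,
      mul_assoc]
  obtain ⟨ε, hε, hball⟩ := Metric.isOpen_iff.1 isOpen_interior z hz
  have hdir : ∀ (y : Fin n → ℝ) (w : Fin n → ℝ), ‖w‖ < ε → ∑ i, y i * w i ≤ f y := fun y w hw => by
    have hm : z + w ∈ K := interior_subset (hball (by simpa [mem_ball_iff_norm] using hw))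
    have := le_supportFun hK y hm
    simp only [Pi.add_apply, mul_add, Finset.sum_add_distrib] at this
    simp only [hf]
    linarith
  have h0 : ∀ y, 0 ≤ f y := fun y => by simpa using hdir y 0 (by simpa using hε)
  have hfpos : ∀ y, y ≠ 0 → 0 < f y := fun y hy => by
    have hyn : 0 < ‖y‖ := norm_pos_iff.2 hy
    set c := ε / (2 * ‖y‖) with hc
    have hc0 : 0 < c := by positivity
    have h := hdir y (c • y) (by
      rw [norm_smul, Real.norm_eq_abs, abs_of_pos hc0, hc]; field_simp; linarith)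
    obtain ⟨j, hj⟩ := Function.ne_iff.1 hy
    have hyy : 0 < ∑ i, y i * (c • y) i :=
      Finset.sum_pos' (fun i _ => by
        simp only [Pi.smul_apply, smul_eq_mul]; nlinarith [mul_self_nonneg (y i)])
        ⟨j, Finset.mem_univ _, by
          simp only [Pi.smul_apply, smul_eq_mul]; nlinarith [mul_self_pos.2 hj]⟩
    linarith
  have hL : {y | f y ≤ 1} ⊆ L := by
    rintro y hy _ ⟨x, hx, rfl⟩
    simp only [mem_ofPred_eq, hf] at hy
    have := le_supportFun hK y hx
    simp only [Pi.sub_apply, mul_sub, Finset.sum_sub_distrib]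
    linarith
  have hLb : Bornology.IsBounded L := by
    refine isBounded_iff_forall_norm_le.2 ⟨2 / ε, fun y hy => ?_⟩
    refine (pi_norm_le_iff_of_nonneg (by positivity)).2 fun j => ?_
    have key : ∀ t : ℝ, |t| < ε → y j * t ≤ 1 := fun t ht => by
      have hw : ‖(Pi.single j t : Fin n → ℝ)‖ < ε := by
        rw [pi_norm_lt_iff hε]
        intro l
        by_cases hl : l = j
        · subst hl; simpa using ht
        · simpa [hl] using hε
      have := hy _ ⟨z + Pi.single j t,
        interior_subset (hball (by simpa [mem_ball_iff_norm] using hw)), rfl⟩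
      simpa [Pi.single_apply] using this
    have h1 := key (ε / 2) (by rw [abs_of_pos (by positivity)]; linarith)
    have h2 := key (-(ε / 2)) (by rw [abs_neg, abs_of_pos (by positivity)]; linarith)
    rw [Real.norm_eq_abs, abs_le, le_div_iff₀ hε, ← neg_div, div_le_iff₀ hε]
    constructor <;> linarith
  -- the Gaussian mean of `f (T g)`
  obtain ⟨hk1, hk2, -, -⟩ := kern_moments n
  set Z := √(2 * Real.pi) ^ n with hZ
  have hZ0 : 0 < Z := by positivity
  set v : Fin n → ℝ := Tᵀ *ᵥ z with hv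
  have hfT : ∀ g, f (T *ᵥ g) = supportFun K (T *ᵥ g) - ∑ i, v i * g i := fun g => by
    simp only [hf]
    congr 1
    simp only [hv, Matrix.mulVec, dotProduct, Finset.sum_mul, Matrix.transpose_apply]
    rw [Finset.sum_comm]
    exact Finset.sum_congr rfl fun i _ => Finset.sum_congr rfl fun j _ => by ring
  have hiw := integrable_width hK hne T
  have hiv : Integrable fun g : Fin n → ℝ => (∑ i, v i * g i) * kern g := by
    refine integrable_kern (by fun_prop) (a := ∑ i, |v i|) (b := ∑ i, |v i|) fun g => ?_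
    refine (Finset.abs_sum_le_sum_abs _ _).trans ?_
    rw [← mul_one_add, Finset.sum_mul]
    refine Finset.sum_le_sum fun i _ => ?_
    rw [abs_mul]
    have := Finset.single_le_sum (f := fun k => g k ^ 2) (fun k _ => sq_nonneg _)
      (Finset.mem_univ i)
    exact mul_le_mul_of_nonneg_left (by nlinarith [sq_abs (g i), sq_nonneg (|g i| - 1)])
      (abs_nonneg _)
  have hiF : Integrable fun g => f (T *ᵥ g) * kern g := by
    simp only [hfT, sub_mul]; exact hiw.sub hiv
  set M := gaussWidth K T with hM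
  have hMZ : ∫ g, f (T *ᵥ g) * kern g = M * Z := by
    simp only [hfT, sub_mul]
    rw [integral_sub hiw hiv, integral_linear_kern, sub_zero, hM, gaussWidth, hZ,
      div_mul_cancel₀ _ (by positivity)]
    rfl
  have hTu : IsUnit T := (Matrix.isUnit_iff_isUnit_det T).2 hT.isUnit
  have hinj : Function.Injective T.mulVec := Matrix.mulVec_injective_iff_isUnit.2 hTu
  have hcT : Continuous fun g => f (T *ᵥ g) :=
    hfc.comp (continuous_const.matrix_mulVec continuous_id)
  have hM0 : 0 < M := by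
    have : Nonempty (Fin n) := ⟨⟨0, hn⟩⟩
    refine pos_of_mul_pos_left ?_ hZ0.le
    rw [← hMZ]
    refine (integral_pos_iff_support_of_nonneg
      (fun g => mul_nonneg (h0 _) (Real.exp_pos _).le) hiF).2 ?_
    refine (((hcT.mul (show Continuous (kern (n := n)) by unfold kern; fun_prop)).isOpen_support).measure_pos
      volume ⟨fun _ => 1, mul_ne_zero (hfpos _ ?_).ne' (Real.exp_pos _).ne'⟩)
    intro h
    have := hinj (a₁ := fun _ => (1 : ℝ)) (a₂ := 0) (by rw [h, Matrix.mulVec_zero])
    exact one_ne_zero (congrFun this ⟨0, hn⟩)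
  refine ⟨hM0, ?_⟩
  set σ := (n : ℝ) / M with hσ
  have hσ0 : 0 < σ := div_pos (by exact_mod_cast hn) hM0
  set S : Matrix (Fin n) (Fin n) ℝ := σ • T with hS
  have hSd : S.det = σ ^ n * T.det := by rw [hS, Matrix.det_smul, Fintype.card_fin]
  have hS0 : S.det ≠ 0 := by rw [hSd]; exact mul_ne_zero (by positivity) hT
  have hfS : ∀ g, f (S *ᵥ g) = σ * f (T *ᵥ g) := fun g => by
    rw [hS, Matrix.smul_mulVec, hsmul σ hσ0.le]
  -- the tangent bound
  have hpt : ∀ g, ENNReal.ofReal (Real.exp (-(n : ℝ) / 2) *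
      ((1 + (n : ℝ) / 2) * kern g + (1 / 2) * ((∑ i, g i ^ 2) * kern g) -
        σ * (f (T *ᵥ g) * kern g))) ≤ ENNReal.ofReal (Real.exp (-f (S *ᵥ g))) := fun g => by
    refine ENNReal.ofReal_le_ofReal ?_
    set q := ∑ i, g i ^ 2 with hq
    have h0 := mul_le_mul_of_nonneg_left
      (Real.add_one_le_exp (-(σ * f (T *ᵥ g)) + q / 2 + (n : ℝ) / 2))
      (mul_pos (Real.exp_pos (-(n : ℝ) / 2)) (Real.exp_pos (-q / 2))).le
    rw [← Real.exp_add, ← Real.exp_add, show -(n : ℝ) / 2 + -q / 2 +
      (-(σ * f (T *ᵥ g)) + q / 2 + (n : ℝ) / 2) = -f (S *ᵥ g) by rw [hfS]; ring, Real.exp_add] at h0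
    refine le_trans (le_of_eq ?_) h0
    simp only [kern, ← hq]; ring
  obtain ⟨-, -, hk3, hk4⟩ := kern_moments n
  have hi1 : Integrable fun g : Fin n → ℝ =>
      (1 + (n : ℝ) / 2) * kern g + (1 / 2) * ((∑ i, g i ^ 2) * kern g) :=
    (hk1.const_mul _).add (hk3.const_mul _)
  have hi2 := ((hi1.sub (hiF.const_mul σ)).const_mul (Real.exp (-(n : ℝ) / 2)))
  have hIval : ∫ g, Real.exp (-(n : ℝ) / 2) *
      ((1 + (n : ℝ) / 2) * kern g + (1 / 2) * ((∑ i, g i ^ 2) * kern g) -
        σ * (f (T *ᵥ g) * kern g)) = Real.exp (-(n : ℝ) / 2) * Z := by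
    rw [integral_const_mul, integral_sub hi1 (hiF.const_mul σ),
      integral_add (hk1.const_mul _) (hk3.const_mul _), integral_const_mul, integral_const_mul,
      integral_const_mul, hk2, hk4, hMZ, hσ, ← hZ]
    field_simp
    ring
  have hlow : ENNReal.ofReal (Real.exp (-(n : ℝ) / 2) * Z) ≤
      ∫⁻ g, ENNReal.ofReal (Real.exp (-f (S *ᵥ g))) := by
    rw [← hIval]
    refine le_trans ?_ (lintegral_mono hpt)
    refine ENNReal.ofReal_le_of_le_toReal ?_
    have h := integral_eq_lintegral_pos_part_sub_lintegral_neg_part hi2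
    simp only [Pi.sub_apply] at h
    rw [h]
    exact sub_le_self _ ENNReal.toReal_nonneg
  have hsubst : ∫⁻ g, ENNReal.ofReal (Real.exp (-f (S *ᵥ g))) =
      ENNReal.ofReal |S.det⁻¹| * ∫⁻ y, ENNReal.ofReal (Real.exp (-f y)) := by
    have hmap := Real.map_matrix_volume_pi_eq_smul_volume_pi hS0
    have h := lintegral_map (μ := (volume : Measure (Fin n → ℝ)))
      (f := fun y => ENNReal.ofReal (Real.exp (-f y))) (g := Matrix.toLin' S)
      (by fun_prop) (Matrix.toLin' S).continuous_of_finiteDimensional.measurable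
    rw [hmap, lintegral_smul_measure] at h
    simp only [Matrix.toLin'_apply, smul_eq_mul] at h
    exact h.symm
  have hmain := hlow.trans (hsubst.trans_le (mul_le_mul_right (exp_gauge_le hfc h0 hsmul hL) _))
  rw [← ENNReal.ofReal_toReal hLb.measure_lt_top.ne, ← ENNReal.ofReal_mul (by positivity),
    ← ENNReal.ofReal_mul (abs_nonneg _), ENNReal.ofReal_le_ofReal_iff (by positivity),
    abs_inv, hSd, abs_mul, abs_of_pos (pow_pos hσ0 n)] at hmain
  rw [← div_le_iff₀' (by positivity)] at hmain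
  refine le_trans (le_of_eq ?_) hmain
  have he : Real.exp (-(n : ℝ) / 2) * Z = √(2 * Real.pi / Real.exp 1) ^ n := by
    rw [Real.sqrt_div (by positivity), div_pow, ← Real.exp_half, ← Real.exp_nat_mul, hZ,
      show -(n : ℝ) / 2 = -((n : ℝ) * (1 / 2)) by ring, Real.exp_neg]
    ring
  rw [he, hσ, mul_div_assoc, mul_pow, div_inv_eq_mul]
  ring

end Vale.Agent.P248.Urysohn
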