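import Vale.Agent.P248.Ellipsoids.Defs

/-!
P248, bodies of small mean width: the definitions.
-/

noncomputable section

open MeasureTheory Set Matrix

namespace Vale.Agent.P248.Urysohn

/-- The support function `h_K(y) = sup {⟨y, x⟩ | x ∈ K}`. -/
def supportFun {n : ℕ} (K : Set (Fin n → ℝ)) (y : Fin n → ℝ) : ℝ :=
  sSup ((fun x => ∑ i, y i * x i) '' K)

/-- The Gaussian mean of `h_K (T g)`, `g` a standard normal vector. -/
def gaussWidth {n : ℕ} (K : Set (Fin n → ℝ)) (T : Matrix (Fin n) (Fin n) ℝ) : ℝ :=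
  (∫ g : Fin n → ℝ, supportFun K (T *ᵥ g) * Real.exp (-(∑ i, g i ^ 2) / 2)) /
    √(2 * Real.pi) ^ n

/-- Constant width `D`: the width in every direction of length one is `D`. -/
def HasConstantWidth {n : ℕ} (K : Set (Fin n → ℝ)) (D : ℝ) : Prop :=
  ∀ y : Fin n → ℝ, supportFun K y + supportFun K (-y) = D * √(∑ i, y i ^ 2)

end Vale.Agent.P248.Urysohn
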